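import Vale.Agent.P275FS.Mo
import Vale.Agent.P275PG.Cx
import Vale.Agent.P275MB.Iso

/-! The complex structure and the scaling on the space of Higgs bundles. -/

open Set Filter Metric
open scoped Topology Matrix.Norms.Operator
open Vale.Agent Vale.Agent.P275MO Vale.Agent.P275PG Vale.Agent.P275GC
open Vale.Agent.P275NA (Cy Mn)
open Vale.Agent.P275DL (Sys mon)
open P275FS (HAt Scal hat hat_cov exists_fam)

noncomputable section

namespace P275CX

variable {n : ℕ}

theorem coeff_eq (k : ℕ) (B : Mn n) : B.charpoly.coeff k =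
    MvPolynomial.eval (fun p : Fin n × Fin n => B p.1 p.2)
      ((Matrix.charpoly.univ ℂ (Fin n)).coeff k) :=
  (Matrix.charpoly.univ_coeff_eval₂Hom (Fin n) (RingHom.id ℂ)
    (fun p : Fin n × Fin n => B p.1 p.2) k).symm

theorem diff_coeff (k : ℕ) : Differentiable ℂ fun B : Mn n => B.charpoly.coeff k := by
  simp only [coeff_eq]
  intro B
  exact (AnalyticOnNhd.eval_linearMap' (𝕜 := ℂ)
    (fun p : Fin n × Fin n => Matrix.entryLinearMap ℂ ℂ p.1 p.2) _ B trivial).differentiableAt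

theorem coeff_smul {k : ℕ} (hk : k ≤ n) (s : ℂ) (B : Mn n) :
    (s • B).charpoly.coeff k = s ^ (n - k) * B.charpoly.coeff k := by
  have h := Matrix.charpoly.univ_coeff_isHomogeneous ℂ (Fin n) k (n - k) (by simp; omega)
  rw [coeff_eq, coeff_eq, MvPolynomial.eval_eq', MvPolynomial.eval_eq', Finset.mul_sum]
  refine Finset.sum_congr rfl fun d hd => ?_
  have e := h (MvPolynomial.mem_support_iff.1 hd)
  simp only [Matrix.smul_apply, smul_eq_mul, mul_pow, Finset.prod_mul_distrib,
    Finset.prod_pow_eq_pow_sum]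
  rw [← e, Finsupp.weight_apply, Finsupp.sum_fintype _ _ (by simp)]
  simp only [Pi.one_apply, smul_eq_mul, mul_one]
  ring

theorem mon_coeff {k : ℕ} (hk : k < n) (c : ℕ → ℂ) : (mon n c).coeff k = c k := by
  simp [mon, Polynomial.coeff_X_pow, hk, hk.ne]

variable {C : Type} [TopologicalSpace C] {A : At C} {l : Cy A ℂ} {τ : Ty n} {x : C}
  {V : Type} [AddCommGroup V] [Module ℂ V]

/-- the values of the coefficients at the points of the unit discs -/
def ev (D : Sys A V n) (x : C) : Set (V →ₗ[ℂ] ℂ) :=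
  {φ | ∃ k < n, ∃ i, ∃ w ∈ ball (0 : ℂ) 1, (A.e i).symm w ≠ x ∧ ∀ v, φ v = D.c k v i w}

theorem ev_sep [T2Space C] (D : Sys A V n) (x : C) (v : V) (hv : ∀ φ ∈ ev D x, φ v = 0) :
    v = 0 := by
  refine D.inj v fun k hk i z hz => ?_
  have hb : ball (0 : ℂ) 1 ⊆ ball 0 A.R := ball_subset_ball A.hR.le
  have h0 : (0 : ℂ) ∈ ball (0 : ℂ) A.R := hb (mem_ball_self one_pos)
  refine ((D.hl k v i).analyticOnNhd isOpen_ball).eqOn_zero_of_preconnected_of_frequently_eq_zero
    (convex_ball _ _).isPreconnected h0 (Eventually.frequently ?_) hz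
  have h1 : ∀ᶠ w in 𝓝[≠] (0 : ℂ), w ≠ A.e i x := by
    by_cases e : A.e i x = 0
    · rw [e]
      exact self_mem_nhdsWithin
    · exact nhdsWithin_le_nhds (eventually_ne_nhds (Ne.symm e))
  filter_upwards [h1, nhdsWithin_le_nhds (ball_mem_nhds (0 : ℂ) one_pos)] with w a b
  refine hv ((LinearMap.proj w).comp ((LinearMap.proj i).comp (D.c k))) ⟨k, hk, i, w, b, ?_,
    fun _ => rfl⟩
  rintro rfl
  exact a ((A.e i).right_inv (by rw [A.tgt]; exact hb b)).symm

theorem ev_span [T2Space C] [FiniteDimensional ℂ V] (D : Sys A V n) (x : C) :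
    Submodule.span ℂ (ev D x) = ⊤ :=
  Submodule.span_eq_top_of_ne_zero fun v hv => by
    by_contra! h
    exact hv (ev_sep D x v h)

theorem chr_ev {D : Sys A V n} {z : Ob A l τ} {v : V} (H : Chr z.pt (D.P v)) {r : ℝ} {h1 : 1 < r}
    {h2 : r ≤ A.R} (g : Good (A.res r h1 h2) l z.1) {k : ℕ} (hk : k < n) {i : Fin A.N} {w : ℂ}
    (hw : w ∈ ball (0 : ℂ) 1) (hx : (A.e i).symm w ≠ z.1.x) :
    D.c k v i w = (z.1.a i w).charpoly.coeff k := by
  rw [H z r h1 h2 rfl g i w ⟨ball_subset_ball h1.le hw, hx⟩, Sys.P, mon_coeff hk]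

/-- the scaling flow -/
def flo (t : ℝ) (y : M0 A l τ x) : M0 A l τ x :=
  ⟨P275MB.fl t y.1, (P275MB.lam_sc _ _).trans (by rw [y.2.1, mul_zero]),
    (P275MB.x_sc _ _).trans y.2.2⟩

theorem flo_flo : P275LM.Flo (flo (A := A) (l := l) (τ := τ) (x := x)) :=
  ⟨(P275MB.cont_fl.comp (continuous_fst.prodMk
      (continuous_subtype_val.comp continuous_snd))).subtype_mk _,
    fun y => Subtype.ext (P275MB.fl_zero y.1), fun s t y => Subtype.ext (P275MB.fl_add s t y.1)⟩

theorem exists_scal [T2Space C] [TopologicalSpace V] [IsTopologicalAddGroup V]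
    [ContinuousSMul ℂ V] [T2Space V] [FiniteDimensional ℂ V] (D : Sys A V n) {h : M0 A l τ x → V}
    (hc : ∀ y, Chr y.1 (D.P (h y)))
    (hs : ∀ (v : V) (s : ℂ), ∃ v', ∀ k < n, ∀ i w, D.c k v' i w = s ^ (n - k) * D.c k v i w) :
    ∃ Ψ, Scal h 0 flo Ψ := by
  choose Ψ hΨ using hs
  have ext : ∀ v v' : V, (∀ φ ∈ ev D x, φ v = φ v') → v = v' := fun v v' e =>
    sub_eq_zero.1 (ev_sep D x _ fun φ hφ => by rw [map_sub, e φ hφ, sub_self])
  refine ⟨fun s v => Ψ v s, flo_flo, ?_, fun v => ext _ _ ?_, fun s => ext _ _ ?_,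
    fun t y => ext _ _ ?_⟩
  · have key : ∀ φ : V →ₗ[ℂ] ℂ, Continuous fun p : ℝ × V => φ (Ψ p.2 p.1) := fun φ => by
      induction (ev_span D x).ge (Submodule.mem_top (x := φ)) using Submodule.span_induction with
      | mem φ hφ =>
        obtain ⟨k, hk, i, w, -, -, e⟩ := hφ
        simp only [e, hΨ _ _ k hk]
        simp only [← e]
        exact ((Complex.continuous_ofReal.comp continuous_fst).pow _).mul
          (φ.continuous_of_finiteDimensional.comp continuous_snd)
      | zero => exact continuous_const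
      | add _ _ _ _ a b => exact a.add b
      | smul c _ _ a => exact a.const_smul c
    let b := Module.finBasis ℂ V
    rw [b.equivFunL.toHomeomorph.isInducing.continuous_iff]
    exact continuous_pi fun i => key (b.coord i)
  · rintro φ ⟨k, hk, i, w, -, -, e⟩
    rw [map_zero, e, hΨ _ _ k hk, Complex.ofReal_zero, zero_pow (by omega), zero_mul]
  · rintro φ ⟨k, hk, i, w, -, -, e⟩
    rw [e, hΨ _ _ k hk, ← e, map_zero, mul_zero]
  · rintro φ ⟨k, hk, i, w, hw, hx, e⟩
    obtain ⟨z, hz⟩ := pt_surj y.1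
    obtain ⟨r, h1, h2, g⟩ := P275MB.Ob.ex z
    have hx' : (A.e i).symm w ≠ z.1.x := by rwa [← P275MB.x_pt, hz, y.2.2]
    have a : (flo t y).1 =
        (P275MB.osc (Units.mk0 (Complex.exp t) (Complex.exp_ne_zero t)) z).pt := by
      rw [← P275MB.sc_pt, hz]
      rfl
    have b := hc y
    have c := hc (flo t y)
    rw [← hz] at b
    rw [a] at c
    rw [e, e, hΨ _ _ k hk, chr_ev b g hk hw hx', chr_ev c (P275MB.Good.smul g _) hk hw hx',
      Complex.ofReal_exp]
    exact coeff_smul hk.le _ _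

/-- **CX2** -/
theorem cx2 (A : At C) (l : Cy A ℂ) (n : ℕ) : CX2 A l n := by
  intro d hS kur τ x V _ _ _ _ _ _ _ D h _ hc hs
  have := hS.t2
  obtain ⟨Ψ, hΨ⟩ := exists_scal D hc hs
  cases isEmpty_or_nonempty (M0 A l τ x) with
  | inl a => exact ⟨⟨⟨fun _ => ∅, fun _ _ _ a => a.elim⟩, fun y => a.elim y,
      fun _ _ _ a => a.elim, _, _, hΨ⟩⟩
  | inr a =>
    have hj : Topology.IsEmbedding (Subtype.val : M0 A l τ x → Mod A l τ) := .subtypeVal
    have rng : range (Subtype.val : M0 A l τ x → Mod A l τ) = {y | y.lam = 0 ∧ y.x = x} :=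
      Subtype.range_coe
    refine ⟨⟨hat hj rng, hat_cov kur, ?_, _, _, hΨ⟩⟩
    rintro φ _ c ⟨K, hp, rfl, a⟩ y hy
    obtain rfl := eq_of_heq a
    obtain ⟨G, hG, hG'⟩ := exists_fam (hj := hj) (rng := rng) K hp y
    have h2 := (P275FS.slc hj rng K hp).open_target.mem_nhds
      ((P275FS.slc hj rng K hp).map_source hy)
    induction (ev_span D x).ge (Submodule.mem_top (x := φ)) using Submodule.span_induction with
    | mem φ hφ =>
      obtain ⟨k, hk, i, w, hw, hx, e⟩ := hφ
      have hx' : ∀ s ∈ (P275FS.slc hj rng K hp).target, (A.e i).symm w ≠ (G s).1.x := fun s hs => by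
        rwa [← P275MB.x_pt, hG' s hs, ((P275FS.slc hj rng K hp).symm s).2.2]
      have h3 := ((hG.ha i).comp (f := fun s => (s, w))
        (differentiableOn_id.prodMk (differentiableOn_const _))
        fun s hs => ⟨hs, ball_subset_ball K.h1.le hw, hx' s hs⟩).differentiableAt h2
      refine ((diff_coeff k _).comp _ h3).congr_of_eventuallyEq ?_
      filter_upwards [h2] with s hs
      rw [e, chr_ev (hG' s hs ▸ hc _) (hG.good s hs) hk hw (hx' s hs)]
      rfl
    | zero => exact differentiableAt_const _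
    | add _ _ _ _ a b => exact a.add b
    | smul c _ _ a => exact a.const_smul c

end P275CX
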